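import Mathlib.Analysis.InnerProductSpace.Calculus
import Mathlib.Analysis.InnerProductSpace.PiL2
import Mathlib.Analysis.SpecialFunctions.Sqrt
import Mathlib.Analysis.Calculus.Deriv.Inv
import Mathlib.Analysis.Calculus.Deriv.Comp
import Mathlib.Analysis.Calculus.Deriv.Add
import Mathlib.Analysis.Calculus.Deriv.Mul
import Mathlib.Analysis.Calculus.Deriv.Pow

/-!
# Infinity-harmonic functions (viscosity sense) and two families of test functions
-/

namespace Vale.Agent.P080

open scoped ContDiff Topology RealInnerProductSpace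
open Set Filter

abbrev E (d : ℕ) := EuclideanSpace ℝ (Fin d)

variable {d : ℕ}

/-- `i`-th partial derivative -/
noncomputable def pd (i : Fin d) (f : E d → ℝ) (x : E d) : ℝ :=
  fderiv ℝ f x (EuclideanSpace.single i 1)

/-- `Δ∞ φ = ∑ φ_i φ_j φ_ij` -/
noncomputable def infLap (φ : E d → ℝ) (x : E d) : ℝ :=
  ∑ i, ∑ j, pd i φ x * pd j φ x * pd i (pd j φ) x

/-- viscosity subsolution of `Δ∞ u = 0` on `U` -/
def IsSub (u : E d → ℝ) (U : Set (E d)) : Prop :=
  ContinuousOn u U ∧ ∀ z ∈ U, ∀ φ : E d → ℝ, ContDiff ℝ 2 φ →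
    IsLocalMax (fun y => u y - φ y) z → 0 ≤ infLap φ z

/-- Test-function comparison: a strict supersolution above `u` on the boundary part of a compact
set stays above it. -/
lemma IsSub.le_of_super {u φ : E d → ℝ} {U S : Set (E d)} (hu : IsSub u U) (hS : IsCompact S)
    (hSU : S ⊆ U) (hφ : ContDiff ℝ 2 φ)
    (h : ∀ z ∈ S, φ z < u z → S ∈ 𝓝 z ∧ infLap φ z < 0) {x : E d} (hx : x ∈ S) : u x ≤ φ x := by
  by_contra hlt
  rw [not_le] at hlt
  have hcont : ContinuousOn (fun y => u y - φ y) S :=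
    (hu.1.mono hSU).sub hφ.continuous.continuousOn
  obtain ⟨z, hz, hmax⟩ := hS.exists_isMaxOn ⟨x, hx⟩ hcont
  have h1 : φ z < u z := by
    have := hmax hx
    simp only [mem_ofPred_eq] at this
    linarith
  obtain ⟨hn, hneg⟩ := h z hz h1
  have := hu.2 z (hSU hz) φ hφ (hmax.isLocalMax hn)
  linarith

lemma inner_single (w : E d) (i : Fin d) : ⟪w, EuclideanSpace.single i (1 : ℝ)⟫ = w i := by
  rw [EuclideanSpace.inner_single_right]; simp

lemma sum_sq (w : E d) : ∑ i, w i * w i = ‖w‖ ^ 2 := by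
  rw [EuclideanSpace.real_norm_sq_eq]; simp [sq]

lemma sum_mul_eq_inner (v w : E d) : ∑ i, v i * w i = ⟪v, w⟫ := by
  rw [PiLp.inner_apply]; simp [mul_comm]

/-- A rank-one-plus-identity Hessian evaluated on the gradient. -/
lemma quad_sum (g v : E d) (c c' : ℝ) :
    ∑ i, ∑ j, g i * g j * (c * (if i = j then 1 else 0) + c' * (v i * v j))
      = c * ‖g‖ ^ 2 + c' * ⟪g, v⟫ ^ 2 := by
  have : ∀ i, ∑ j, g i * g j * (c * (if i = j then 1 else 0) + c' * (v i * v j))
      = c * (g i * g i) + c' * (g i * v i) * ⟪g, v⟫ := by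
    intro i
    simp only [mul_add, Finset.sum_add_distrib, mul_ite, mul_one, mul_zero, Finset.sum_ite_eq,
      Finset.mem_univ, if_true]
    rw [← sum_mul_eq_inner g v, Finset.mul_sum]
    congr 1
    · ring
    · exact Finset.sum_congr rfl fun j _ => by ring
  simp only [this, Finset.sum_add_distrib, ← Finset.sum_mul, ← Finset.mul_sum, sum_sq,
    sum_mul_eq_inner]
  ring

/-! ### radial test functions -/

lemma hasFDerivAt_normSq (x0 x : E d) :
    HasFDerivAt (fun y => ‖y - x0‖ ^ 2) ((2 : ℝ) • innerSL ℝ (x - x0)) x := by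
  have := ((hasFDerivAt_id x).sub_const x0).norm_sq
  simpa [two_smul] using this

lemma pd_radial {q : ℝ → ℝ} {x0 x : E d} {c : ℝ} (hq : HasDerivAt q c (‖x - x0‖ ^ 2)) (i : Fin d) :
    pd i (fun y => q (‖y - x0‖ ^ 2)) x = c * (2 * (x - x0) i) := by
  have h := hq.comp_hasFDerivAt x (hasFDerivAt_normSq x0 x)
  rw [pd, HasFDerivAt.fderiv (f := fun y => q (‖y - x0‖ ^ 2)) h]
  simp [inner_single]

lemma infLap_radial {q q1 q2 : ℝ → ℝ} {x0 x : E d} (h1 : ∀ s, 0 ≤ s → HasDerivAt q (q1 s) s)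
    (h2 : ∀ s, 0 ≤ s → HasDerivAt q1 (q2 s) s) :
    infLap (fun y => q (‖y - x0‖ ^ 2)) x =
      8 * q1 (‖x - x0‖ ^ 2) ^ 2 * ‖x - x0‖ ^ 2 *
        (2 * q2 (‖x - x0‖ ^ 2) * ‖x - x0‖ ^ 2 + q1 (‖x - x0‖ ^ 2)) := by
  set w := x - x0 with hw
  set s := ‖w‖ ^ 2 with hs
  have hg : ∀ (i : Fin d) (y : E d), pd i (fun y => q (‖y - x0‖ ^ 2)) y
      = q1 (‖y - x0‖ ^ 2) * (2 * (y - x0) i) :=
    fun i y => pd_radial (h1 _ (sq_nonneg _)) i
  have hH : ∀ i j : Fin d, pd i (pd j (fun y => q (‖y - x0‖ ^ 2))) x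
      = 2 * q1 s * (if i = j then 1 else 0) + 4 * q2 s * (w i * w j) := by
    intro i j
    rw [show pd j (fun y => q (‖y - x0‖ ^ 2)) = fun y => q1 (‖y - x0‖ ^ 2) * (2 * (y - x0) j)
      from funext (hg j)]
    have ha := (h2 s (sq_nonneg _)).comp_hasFDerivAt x (hasFDerivAt_normSq x0 x)
    have hb : HasFDerivAt (fun y : E d => 2 * (y - x0) j)
        ((2 : ℝ) • EuclideanSpace.proj (𝕜 := ℝ) j) x := by
      have := ((EuclideanSpace.proj (𝕜 := ℝ) j).hasFDerivAt.comp x
        ((hasFDerivAt_id x).sub_const x0)).const_mul (2 : ℝ)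
      simpa using this
    rw [pd, HasFDerivAt.fderiv (f := fun y => q1 (‖y - x0‖ ^ 2) * (2 * (y - x0) j)) (ha.mul hb)]
    by_cases hij : i = j
    · subst hij
      simp [inner_single, ← hw, ← hs]
      ring
    · simp [inner_single, hij, Ne.symm hij, ← hw, ← hs]
      ring
  unfold infLap
  simp only [hH, hg, ← hw, ← hs]
  have hgv : ∀ i : Fin d, q1 s * (2 * w i) = ((2 * q1 s) • w) i := fun i => by simp; ring
  simp only [hgv, quad_sum]
  rw [norm_smul, real_inner_smul_left, real_inner_self_eq_norm_sq, ← hs, mul_pow,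
    Real.norm_eq_abs, sq_abs]
  ring

/-! ### quadratic test functions -/

/-- `c + β⟪e,x⟫ + A‖x‖² + B⟪e,x⟫²` -/
noncomputable def quad (c β A B : ℝ) (e : E d) (x : E d) : ℝ :=
  c + β * ⟪e, x⟫ + A * ‖x‖ ^ 2 + B * ⟪e, x⟫ ^ 2

lemma contDiff_quad (c β A B : ℝ) (e : E d) : ContDiff ℝ 2 (quad c β A B e) := by
  unfold quad
  exact ((contDiff_const.add (contDiff_const.mul (contDiff_const.inner ℝ contDiff_id))).add
    (contDiff_const.mul (contDiff_id.norm_sq ℝ))).add
    (contDiff_const.mul ((contDiff_const.inner ℝ contDiff_id).pow 2))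

lemma infLap_quad (c β A B : ℝ) {e : E d} (he : ‖e‖ = 1) (x : E d) :
    infLap (quad c β A B e) x =
      2 * (A + B) * (β + 2 * (A + B) * ⟪e, x⟫) ^ 2 +
        8 * A ^ 3 * (‖x‖ ^ 2 - ⟪e, x⟫ ^ 2) := by
  have hin : ∀ y : E d, HasFDerivAt (fun z : E d => ⟪e, z⟫) (innerSL ℝ e) y :=
    fun y => (innerSL ℝ e).hasFDerivAt
  have hg : ∀ (i : Fin d) (y : E d), pd i (quad c β A B e) y
      = β * e i + 2 * A * y i + 2 * B * ⟪e, y⟫ * e i := by
    intro i y
    have hn : HasFDerivAt (fun z : E d => ‖z‖ ^ 2) ((2 : ℝ) • innerSL ℝ y) y := by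
      simpa using hasFDerivAt_normSq 0 y
    have h := (((hasFDerivAt_const c y).add ((hin y).const_mul β)).add (hn.const_mul A)).add
      (((hin y).pow 2).const_mul B)
    rw [pd, HasFDerivAt.fderiv (f := quad c β A B e) h]
    simp [inner_single]
    ring
  have hH : ∀ (i j : Fin d), pd i (pd j (quad c β A B e)) x
      = 2 * A * (if i = j then 1 else 0) + 2 * B * (e i * e j) := by
    intro i j
    rw [show pd j (quad c β A B e) = fun y => β * e j + 2 * A * y j + 2 * B * ⟪e, y⟫ * e j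
      from funext (hg j)]
    have h := (((EuclideanSpace.proj (𝕜 := ℝ) j).hasFDerivAt (x := x)).const_mul (2 * A)).add
        ((hin x).const_mul (2 * B * e j))
    have heq : (fun y : E d => β * e j + 2 * A * y j + 2 * B * ⟪e, y⟫ * e j)
        = fun y : E d => β * e j + ((fun y => 2 * A * EuclideanSpace.proj (𝕜 := ℝ) j y) +
            fun y => 2 * B * e j * ⟪e, y⟫) y := by
      funext y; simp; ring
    rw [pd, heq, fderiv_const_add, h.fderiv]
    by_cases hij : i = j
    · subst hij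
      simp [inner_single]
      ring
    · simp [inner_single, hij, Ne.symm hij]
      ring
  unfold infLap
  simp only [hH, hg]
  have hgv : ∀ i : Fin d, β * e i + 2 * A * x i + 2 * B * ⟪e, x⟫ * e i
      = ((β + 2 * B * ⟪e, x⟫) • e + (2 * A) • x) i := fun i => by simp; ring
  simp only [hgv, quad_sum]
  rw [norm_add_sq_real, norm_smul, norm_smul, real_inner_smul_left, real_inner_smul_right,
    inner_add_left, real_inner_smul_left, real_inner_smul_left, real_inner_self_eq_norm_sq, he,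
    real_inner_comm e x, Real.norm_eq_abs, Real.norm_eq_abs, mul_pow, mul_pow, sq_abs, sq_abs]
  ring

end Vale.Agent.P080
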