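import Vale.Agent.P080.Defs

/-!
# Comparison with cones from the viscosity definition
-/

namespace Vale.Agent.P080

open scoped ContDiff Topology RealInnerProductSpace
open Set Filter Metric

variable {d : ℕ}

/-- One cone comparison for viscosity subsolutions. -/
lemma IsSub.cone {u : E d → ℝ} {U : Set (E d)} (hu : IsSub u U) {x : E d} {ρ k : ℝ} (hρ : 0 < ρ)
    (hk : 0 ≤ k) (hU : closedBall x ρ ⊆ U) (hs : ∀ y, ‖y - x‖ = ρ → u y ≤ u x + k * ρ)
    {y : E d} (hy : ‖y - x‖ ≤ ρ) : u y ≤ u x + k * ‖y - x‖ := by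
  refine le_of_forall_pos_le_add fun ε hε => ?_
  have hc : ContinuousWithinAt u (closedBall x ρ) x :=
    (hu.1.mono hU) x (mem_closedBall_self hρ.le)
  obtain ⟨r, hr, hr'⟩ := Metric.continuousWithinAt_iff.1 hc (ε / 2) (by linarith)
  set r0 := min (r / 2) (ρ / 2) with hr0def
  have hr0 : 0 < r0 := lt_min (by linarith) (by linarith)
  have hin : ∀ z, ‖z - x‖ ≤ r0 → u z ≤ u x + ε / 2 := by
    intro z hz
    have h1 : dist z x < r := by
      rw [dist_eq_norm]; linarith [min_le_left (r / 2) (ρ / 2)]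
    have h2 : z ∈ closedBall x ρ := by
      rw [mem_closedBall, dist_eq_norm]; linarith [min_le_right (r / 2) (ρ / 2)]
    have := hr' h2 h1
    rw [Real.dist_eq, abs_lt] at this
    linarith
  obtain ⟨δ, hδ, hδb⟩ : ∃ δ : ℝ, 0 < δ ∧ 3 * δ * (ρ + 1) * ρ ≤ ε / 4 := by
    refine ⟨ε / (12 * (ρ + 1) * ρ), by positivity, ?_⟩
    apply le_of_eq
    field_simp
    ring
  set k' := k + 3 * δ * (ρ + 1) with hk'
  have hk'0 : 0 < k' := by positivity
  obtain ⟨h, hh, hh1, hh2, hh3⟩ : ∃ h : ℝ, 0 < h ∧ h ≤ 1 ∧ k' * h ≤ δ * r0 ^ 3 ∧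
      k' * Real.sqrt h ≤ ε / 4 := by
    refine ⟨min 1 (min (δ * r0 ^ 3 / k') ((ε / (4 * k')) ^ 2)), ?_, min_le_left _ _, ?_, ?_⟩
    · exact lt_min one_pos (lt_min (by positivity) (by positivity))
    · calc _ ≤ k' * (δ * r0 ^ 3 / k') := mul_le_mul_of_nonneg_left
            ((min_le_right _ _).trans (min_le_left _ _)) hk'0.le
        _ = _ := by field_simp
    · calc _ ≤ k' * Real.sqrt ((ε / (4 * k')) ^ 2) := mul_le_mul_of_nonneg_left
            (Real.sqrt_le_sqrt ((min_le_right _ _).trans (min_le_right _ _))) hk'0.le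
        _ = _ := by rw [Real.sqrt_sq (by positivity)]; field_simp
  set q : ℝ → ℝ := fun s => u x + ε / 2 + (k' * Real.sqrt (s + h) - δ * s) with hq
  set q1 : ℝ → ℝ := fun s => k' / (2 * Real.sqrt (s + h)) - δ with hq1
  set q2 : ℝ → ℝ := fun s => -k' / (4 * Real.sqrt (s + h) ^ 3) with hq2
  have hd1 : ∀ s, 0 ≤ s → HasDerivAt q (q1 s) s := by
    intro s hs
    have h0 : HasDerivAt (fun t : ℝ => t + h) 1 s := (hasDerivAt_id s).add_const h
    have h1 : HasDerivAt (fun t => Real.sqrt (t + h)) (1 / (2 * Real.sqrt (s + h))) s :=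
      HasDerivAt.sqrt h0 (by linarith)
    have h2 := HasDerivAt.const_add (u x + ε / 2) (HasDerivAt.sub (HasDerivAt.const_mul k' h1)
      (HasDerivAt.const_mul δ (hasDerivAt_id s)))
    exact h2.congr_deriv (by simp only [hq1]; ring)
  have hd2 : ∀ s, 0 ≤ s → HasDerivAt q1 (q2 s) s := by
    intro s hs
    have hne : Real.sqrt (s + h) ≠ 0 := (Real.sqrt_pos.2 (by linarith)).ne'
    have h0 : HasDerivAt (fun t : ℝ => t + h) 1 s := (hasDerivAt_id s).add_const h
    have h1 : HasDerivAt (fun t => 2 * Real.sqrt (t + h)) (2 * (1 / (2 * Real.sqrt (s + h)))) s :=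
      HasDerivAt.const_mul 2 (HasDerivAt.sqrt h0 (by linarith))
    have h2 := HasDerivAt.sub_const δ (HasDerivAt.const_mul k' (HasDerivAt.inv h1 (by positivity)))
    have e : q1 = fun x => k' * (fun t => 2 * Real.sqrt (t + h))⁻¹ x - δ := by
      funext t; simp [hq1, div_eq_mul_inv]
    rw [e]
    exact h2.congr_deriv (by simp only [hq2]; field_simp; ring)
  have hφ : ContDiff ℝ 2 (fun z => q (‖z - x‖ ^ 2)) := by
    have e : (fun z => q (‖z - x‖ ^ 2)) = fun z =>
        u x + ε / 2 + (k' * Real.sqrt (‖z - x‖ ^ 2 + h) - δ * ‖z - x‖ ^ 2) := rfl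
    rw [e]
    have hn : ContDiff ℝ 2 (fun z : E d => ‖z - x‖ ^ 2) :=
      (contDiff_id.sub contDiff_const).norm_sq ℝ
    exact contDiff_const.add ((contDiff_const.mul ((hn.add contDiff_const).sqrt fun z => by
      positivity)).sub (contDiff_const.mul hn))
  have hlow : ∀ z : E d, ‖z - x‖ ≤ Real.sqrt (‖z - x‖ ^ 2 + h) := fun z => by
    calc ‖z - x‖ = Real.sqrt (‖z - x‖ ^ 2) := (Real.sqrt_sq (norm_nonneg _)).symm
      _ ≤ _ := Real.sqrt_le_sqrt (by linarith)
  have key : u y ≤ q (‖y - x‖ ^ 2) := by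
    refine hu.le_of_super (isCompact_closedBall x ρ) hU hφ (fun z hz hlt => ?_)
      (by rw [mem_closedBall, dist_eq_norm]; exact hy)
    rw [mem_closedBall, dist_eq_norm] at hz
    have hn0 := norm_nonneg (z - x)
    have hq0 : u x + ε / 2 + (k' * ‖z - x‖ - δ * ‖z - x‖ ^ 2) ≤ q (‖z - x‖ ^ 2) := by
      simp only [hq]
      linarith [mul_le_mul_of_nonneg_left (hlow z) hk'0.le]
    have hr1 : r0 < ‖z - x‖ := by
      by_contra hcon
      have := hin z (not_lt.1 hcon)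
      nlinarith [mul_nonneg hδ.le hn0, mul_nonneg (mul_nonneg hδ.le hn0) (sub_nonneg.2 hz),
        mul_nonneg hk hn0]
    have hr2 : ‖z - x‖ < ρ := by
      rcases hz.lt_or_eq with h' | h'
      · exact h'
      · exfalso
        have := hs z h'
        rw [h'] at hq0 hlt
        nlinarith [mul_pos hδ hρ, mul_pos (mul_pos hδ hρ) hρ]
    refine ⟨mem_of_superset (closedBall_mem_nhds_of_mem (x := z) (c := x) (ε := ρ) ?_)
      (subset_refl _), ?_⟩
    · rw [mem_ball, dist_eq_norm]; exact hr2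
    rw [infLap_radial hd1 hd2]
    set s := ‖z - x‖ ^ 2 with hsdef
    have hs0 : 0 < s := by rw [hsdef]; exact pow_pos (hr0.trans hr1) 2
    set S := Real.sqrt (s + h) with hS
    have hS0 : 0 < S := Real.sqrt_pos.2 (by linarith)
    have hS2 : S ^ 2 = s + h := Real.sq_sqrt (by linarith)
    have hSle : S ≤ ρ + 1 := by
      rw [hS, Real.sqrt_le_left (by linarith)]
      nlinarith [hr2.le, hn0, hρ, hh1]
    have hq1pos : 0 < q1 s := by
      simp only [hq1, ← hS, sub_pos]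
      rw [lt_div_iff₀ (by positivity)]
      nlinarith [mul_le_mul_of_nonneg_left hSle hδ.le]
    have hr03 : r0 ^ 3 ≤ S ^ 3 :=
      pow_le_pow_left₀ hr0.le ((hr1.le).trans (hlow z)) 3
    have hneg : 2 * q2 s * s + q1 s < 0 := by
      simp only [hq1, hq2, ← hS]
      have e : 2 * (-k' / (4 * S ^ 3)) * s + (k' / (2 * S) - δ)
          = k' * h / (2 * S ^ 3) - δ := by
        field_simp
        linear_combination (4 : ℝ) * k' * hS2
      rw [e, sub_neg, div_lt_iff₀ (by positivity)]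
      nlinarith [mul_le_mul_of_nonneg_left hr03 hδ.le, mul_pos hδ (pow_pos hS0 3)]
    exact mul_neg_of_pos_of_neg (by positivity) hneg
  have hsq : Real.sqrt (‖y - x‖ ^ 2 + h) ≤ ‖y - x‖ + Real.sqrt h := by
    rw [Real.sqrt_le_left (by positivity)]
    nlinarith [Real.sq_sqrt hh.le, Real.sqrt_nonneg h, norm_nonneg (y - x)]
  simp only [hq] at key
  nlinarith [mul_le_mul_of_nonneg_left hsq hk'0.le, norm_nonneg (y - x),
    mul_le_mul_of_nonneg_left hy (mul_nonneg (mul_nonneg (by norm_num : (0:ℝ) ≤ 3) hδ.le)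
      (by linarith : (0:ℝ) ≤ ρ + 1)), mul_nonneg hδ.le (sq_nonneg ‖y - x‖)]

/-- Slope bound for a subsolution close to a linear function. -/
lemma IsSub.slope_flat {u : E d → ℝ} {U : Set (E d)} (hu : IsSub u U) {a x : E d} {ρ C : ℝ}
    (hρ : 0 < ρ) (hU : closedBall x ρ ⊆ U) (hflat : ∀ z ∈ closedBall x ρ, |u z - ⟪a, z⟫| ≤ C)
    {y : E d} (hy : ‖y - x‖ ≤ ρ) : u y - u x ≤ (‖a‖ + 2 * C / ρ) * ‖y - x‖ := by
  have hC : 0 ≤ C := (abs_nonneg _).trans (hflat x (mem_closedBall_self hρ.le))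
  have h := hu.cone (k := ‖a‖ + 2 * C / ρ) hρ (by positivity) hU (fun z hz => ?_) hy
  · linarith
  have h1 := abs_le.1 (hflat z (by rw [mem_closedBall, dist_eq_norm, hz]))
  have h2 := abs_le.1 (hflat x (mem_closedBall_self hρ.le))
  have h3 : ⟪a, z⟫ - ⟪a, x⟫ ≤ ‖a‖ * ρ := by
    rw [← inner_sub_right, ← hz]; exact real_inner_le_norm a (z - x)
  have h4 : (‖a‖ + 2 * C / ρ) * ρ = ‖a‖ * ρ + 2 * C := by field_simp
  linarith

end Vale.Agent.P080
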