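import Vale.Agent.P080.Cone
import Mathlib.Analysis.SpecialFunctions.Pow.Real
import Mathlib.Algebra.Order.Floor.Semiring

/-!
# Decay of the vertical oscillation for a subsolution close to a linear function
-/

namespace Vale.Agent.P080

open scoped ContDiff Topology RealInnerProductSpace
open Set Filter Metric

variable {d : ℕ}

/-- `u` is within distance `1` of `x ↦ ⟪e, x⟫` on the ball of radius `R`, and is a subsolution. -/
structure Flat (u : E d → ℝ) (e : E d) (R : ℝ) : Prop where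
  sub : IsSub u (ball 0 R)
  unit : ‖e‖ = 1
  pos : 0 < R
  flat : ∀ z ∈ ball (0 : E d) R, |u z - ⟪e, z⟫| ≤ 1

/-- deviation from the linear function -/
noncomputable def dev (u : E d → ℝ) (e z : E d) : ℝ := u z - ⟪e, z⟫

namespace Flat

variable {u : E d → ℝ} {e : E d} {R : ℝ}

lemma slope (H : Flat u e R) {x y : E d} (hx : ‖x‖ ≤ R / 4) (hy : ‖y‖ ≤ R / 4) :
    dev u e y - dev u e x ≤ (1 + 4 / R) * ‖y - x‖ - ⟪e, y - x⟫ := by
  have hR := H.pos
  have hU : closedBall x (R / 2) ⊆ ball (0 : E d) R := fun z hz => by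
    rw [mem_closedBall, dist_eq_norm] at hz
    rw [mem_ball, dist_zero_right]
    have := norm_le_norm_add_norm_sub' z x
    linarith
  have h := H.sub.slope_flat (a := e) (C := 1) (by linarith) hU (fun z hz => H.flat z (hU hz))
    (y := y) ((norm_sub_le y x).trans (by linarith))
  rw [H.unit, show (2 : ℝ) * 1 / (R / 2) = 4 / R by ring] at h
  rw [dev, dev, inner_sub_right]
  linarith

/-- the cone bound in parabolic form -/
lemma parab (H : Flat u e R) {x y : E d} (hx : ‖x‖ ≤ R / 4) (hy : ‖y‖ ≤ R / 4) {s L : ℝ}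
    (hs : 0 < s) (hs' : ⟪e, y - x⟫ = s) (hL : ‖y - x‖ ≤ L) :
    dev u e y - dev u e x ≤ (‖y - x‖ ^ 2 - s ^ 2) / (2 * s) + 4 * L / R := by
  have h := H.slope hx hy
  rw [hs'] at h
  have h1 : ‖y - x‖ - s ≤ (‖y - x‖ ^ 2 - s ^ 2) / (2 * s) := by
    rw [le_div_iff₀ (by positivity)]; nlinarith [sq_nonneg (‖y - x‖ - s)]
  have h2 : 4 / R * ‖y - x‖ ≤ 4 * L / R := by
    rw [div_mul_eq_mul_div]
    exact div_le_div_of_nonneg_right (by linarith) H.pos.le
  linarith

lemma norm_axis (H : Flat u e R) (t : ℝ) : ‖t • e‖ = |t| := by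
  rw [norm_smul, H.unit, mul_one, Real.norm_eq_abs]

lemma mono (H : Flat u e R) {a b : ℝ} (hab : a ≤ b) (ha : |a| ≤ R / 4) (hb : |b| ≤ R / 4) :
    dev u e (b • e) - dev u e (a • e) ≤ 4 * (b - a) / R := by
  have h := H.slope (x := a • e) (y := b • e) (by rw [H.norm_axis]; exact ha)
    (by rw [H.norm_axis]; exact hb)
  rw [← sub_smul, H.norm_axis, real_inner_smul_right, real_inner_self_eq_norm_sq, H.unit,
    abs_of_nonneg (by linarith)] at h
  calc _ ≤ _ := h
    _ = _ := by ring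

/-- drop of the deviation along the axis -/
noncomputable def drop (u : E d → ℝ) (e : E d) (s : ℝ) : ℝ :=
  dev u e ((-s) • e) - dev u e (s • e)

lemma abs_dev (H : Flat u e R) {z : E d} (hz : ‖z‖ < R) : |dev u e z| ≤ 1 :=
  H.flat z (by rwa [mem_ball, dist_zero_right])

lemma drop_le (H : Flat u e R) {s : ℝ} (hs : |s| < R) : drop u e s ≤ 2 := by
  have h1 := abs_le.1 (H.abs_dev (z := (-s) • e) (by rw [H.norm_axis, abs_neg]; exact hs))
  have h2 := abs_le.1 (H.abs_dev (z := s • e) (by rw [H.norm_axis]; exact hs))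
  unfold drop; linarith

lemma norm_add_axis_sq (H : Flat u e R) (z : E d) (c : ℝ) :
    ‖z - c • e‖ ^ 2 - (⟪e, z⟫ - c) ^ 2 = ‖z‖ ^ 2 - ⟪e, z⟫ ^ 2 := by
  rw [norm_sub_sq_real, real_inner_smul_right, real_inner_comm e z, H.norm_axis, sq_abs]
  ring

lemma inner_sub_axis (H : Flat u e R) (z : E d) (c : ℝ) :
    ⟪e, z - c • e⟫ = ⟪e, z⟫ - c := by
  rw [inner_sub_right, real_inner_smul_right, real_inner_self_eq_norm_sq, H.unit]; ring

/-- The real-variable part of `step`: points above the test function are interior. -/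
lemma good_point {D η τ ξ b c f : ℝ} (hD : 0 < D) (hη : η = D / 4096) (hτ : -1 ≤ τ ∧ τ ≤ 1)
    (hξ : 0 ≤ ξ) (hf : b - 4 * η - D / 4 * τ - D / 8 * τ ^ 2 + ξ < f) (U1 : f ≤ b + 4 * η)
    (U2 : 1 / 256 < τ → f ≤ c + ξ / τ + η / 2) (hc : D = b - c) :
    |τ| < 1 ∧ ξ < 32 * η := by
  rcases le_or_gt τ 0 with hneg | hpos
  · have hsq : D / 8 * τ ^ 2 ≤ D / 8 * -τ :=
      mul_le_mul_of_nonneg_left (by nlinarith [hτ.1]) (by linarith)
    refine ⟨?_, by nlinarith⟩
    rw [abs_of_nonpos hneg]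
    by_contra hcon
    have : τ = -1 := by linarith [hτ.1, not_lt.1 hcon]
    subst this
    linarith
  · have hsq : D / 8 * τ ^ 2 ≤ D / 8 * τ :=
      mul_le_mul_of_nonneg_left (by nlinarith [hτ.2]) (by linarith)
    rw [abs_of_pos hpos]
    rcases le_or_gt τ (1 / 256) with hsmall | hbig
    · exact ⟨by linarith, by nlinarith [mul_le_mul_of_nonneg_left hsmall hD.le]⟩
    · have h := U2 hbig
      have h3 : ξ / τ < 8 * η / τ + 3 * D / 8 := by
        rw [show 8 * η / τ + 3 * D / 8 = (8 * η + 3 * D / 8 * τ) / τ by field_simp]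
        exact div_lt_div_of_pos_right (by linarith) hpos
      have h4 : (D / 4 - 9 / 2 * η) * τ < 8 * η := by
        rw [← lt_div_iff₀ hpos]
        linarith [mul_le_mul_of_nonneg_left hτ.2 hD.le]
      have h5 : τ < 1 / 100 := by
        by_contra hcon
        have := mul_le_mul_of_nonneg_left (not_lt.1 hcon)
          (by rw [hη]; linarith : 0 ≤ D / 4 - 9 / 2 * η)
        linarith
      exact ⟨by linarith, by linarith [mul_le_mul_of_nonneg_left h5.le hD.le]⟩

/-- The test function is a strict supersolution at interior points. -/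
lemma super_neg {D η T τ ξ σ κ : ℝ} (hD : 0 < D) (hη : η = D / 4096) (hD2 : D ≤ 2) (hT : 2 ≤ T)
    (hτ : -1 ≤ τ ∧ τ ≤ 1) (hξ : ξ < 32 * η) (hσ : σ = D / 4) (hκ : κ = D / 8) :
    2 * (1 / T + (-(κ / T ^ 2) - 1 / T)) *
        (1 - σ / T + 2 * (1 / T + (-(κ / T ^ 2) - 1 / T)) * (τ * T)) ^ 2 +
      8 * (1 / T) ^ 3 * (ξ * T) < 0 := by
  have hT0 : 0 < T := by linarith
  have e2 : 2 * (1 / T + (-(κ / T ^ 2) - 1 / T)) *
        (1 - σ / T + 2 * (1 / T + (-(κ / T ^ 2) - 1 / T)) * (τ * T)) ^ 2 +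
      8 * (1 / T) ^ 3 * (ξ * T)
      = (8 * ξ - 2 * κ * (1 - (σ + 2 * κ * τ) / T) ^ 2) / T ^ 2 := by
    field_simp; ring
  rw [e2]
  refine div_neg_of_neg_of_pos ?_ (by positivity)
  have h5 : (σ + 2 * κ * τ) / T ≤ 1 / 2 := by
    rw [div_le_iff₀ hT0, hσ, hκ]
    have := mul_le_mul_of_nonneg_left hτ.2 hD.le
    linarith
  have h6 : (1 / 4 : ℝ) ≤ (1 - (σ + 2 * κ * τ) / T) ^ 2 := by
    calc (1 / 4 : ℝ) = (1 / 2) ^ 2 := by norm_num
      _ ≤ _ := pow_le_pow_left₀ (by norm_num) (by linarith) 2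
  have h7 := mul_le_mul_of_nonneg_left h6 (by rw [hκ]; linarith : 0 ≤ 2 * κ)
  rw [hκ] at h7 ⊢
  linarith

/-- One step: the drop grows by a fixed factor when the scale is multiplied by `4096`. -/
lemma step (H : Flat u e R) {s : ℝ} (hs : 1 / 256 ≤ s) (hsR : 16384 * s ≤ R) :
    drop u e s * (1 + 1 / 8192) ≤ drop u e (4096 * s) + 60000 * (s / R) := by
  have hR := H.pos
  have hs0 : 0 < s := by linarith
  have hsR0 : 0 ≤ s / R := by positivity
  have hm1 := H.mono (a := s) (b := 4096 * s) (by linarith)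
    (by rw [abs_of_pos hs0]; linarith) (by rw [abs_of_pos (by positivity)]; linarith)
  have hm2 := H.mono (a := -(4096 * s)) (b := -s) (by linarith)
    (by rw [abs_neg, abs_of_pos (by positivity)]; linarith)
    (by rw [abs_neg, abs_of_pos hs0]; linarith)
  rw [show 4 * (4096 * s - s) / R = 16380 * (s / R) by ring] at hm1
  rw [show 4 * (-s - -(4096 * s)) / R = 16380 * (s / R) by ring] at hm2
  set D := drop u e s with hD
  have hD' : D = dev u e ((-s) • e) - dev u e (s • e) := rfl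
  have hG : drop u e (4096 * s) = dev u e ((-(4096 * s)) • e) - dev u e ((4096 * s) • e) := rfl
  rcases le_or_gt D 0 with hD0 | hD0
  · linarith
  set η := D / 4096 with hη
  by_cases hc1 : η / 2 < dev u e ((-(4096 * s)) • e) - dev u e ((-s) • e)
  · linarith
  by_cases hc2 : η / 2 < 4 * (10 * (512 * s)) / R
  · rw [show 4 * (10 * (512 * s)) / R = 20480 * (s / R) by ring] at hc2
    linarith
  rw [not_lt] at hc1 hc2
  exfalso
  have hD2 : D ≤ 2 := H.drop_le (by rw [abs_of_pos hs0]; linarith)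
  have hη0 : 0 < η := by rw [hη]; linarith
  set T := 512 * s with hT
  have hT2 : 2 ≤ T := by linarith
  have hT0 : 0 < T := by linarith
  set σ := D / 4 with hσ
  set κ := D / 8 with hκ
  set b := dev u e ((-s) • e) with hb
  set φ := quad (b - 4 * η) (1 - σ / T) (1 / T) (-(κ / T ^ 2) - 1 / T) e with hφ
  set S : Set (E d) := {z | |⟪e, z⟫| ≤ T ∧ ‖z‖ ^ 2 - ⟪e, z⟫ ^ 2 ≤ 32 * η * T} with hS
  have hnorm : ∀ z ∈ S, ‖z‖ ≤ 2 * T := by
    intro z hz
    have h1 : ⟪e, z⟫ ^ 2 ≤ T ^ 2 := by rw [← sq_abs]; exact pow_le_pow_left₀ (abs_nonneg _) hz.1 2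
    nlinarith [hz.2, norm_nonneg z]
  have hSU : S ⊆ ball (0 : E d) R := fun z hz => by
    rw [mem_ball, dist_zero_right]; linarith [hnorm z hz]
  have hSc : IsCompact S := by
    refine Metric.isCompact_of_isClosed_isBounded ?_ ?_
    · exact (isClosed_le (f := fun z : E d => |⟪e, z⟫|) (by fun_prop) continuous_const).inter
        (isClosed_le (f := fun z : E d => ‖z‖ ^ 2 - ⟪e, z⟫ ^ 2) (by fun_prop) continuous_const)
    · exact (isBounded_closedBall (x := (0 : E d)) (r := 2 * T)).subset fun z hz => by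
        rw [mem_closedBall, dist_zero_right]; exact hnorm z hz
  -- `φ` in normalised coordinates
  have hφval : ∀ z, φ z - ⟪e, z⟫ = b - 4 * η - σ * (⟪e, z⟫ / T) - κ * (⟪e, z⟫ / T) ^ 2
      + (‖z‖ ^ 2 - ⟪e, z⟫ ^ 2) / T := by
    intro z; simp only [hφ, quad]; field_simp; ring
  have hx0 : (-s) • e ∈ S := by
    simp only [hS, mem_ofPred_eq, real_inner_smul_right, real_inner_self_eq_norm_sq, H.unit,
      H.norm_axis]
    constructor
    · rw [abs_le]; constructor <;> linarith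
    · have : 0 ≤ 32 * η * T := by positivity
      rw [sq_abs]; linarith
  have key := H.sub.le_of_super hSc hSU (contDiff_quad _ _ _ _ _) (φ := φ) (fun z hz hlt => ?_) hx0
  · -- the starting point lies strictly above `φ`
    have h1 := hφval ((-s) • e)
    rw [real_inner_smul_right, real_inner_self_eq_norm_sq, H.unit, H.norm_axis, sq_abs] at h1
    have h2 : (-s * 1 ^ 2) / T = -(1 / 512) := by rw [hT]; field_simp
    rw [h2] at h1
    have h3 : u ((-s) • e) - ⟪e, (-s) • e⟫ = b := rfl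
    rw [real_inner_smul_right, real_inner_self_eq_norm_sq, H.unit] at h3
    norm_num at h1 h3
    rw [neg_smul] at key
    linarith
  -- points above `φ` are interior and `φ` is a strict supersolution there
  set t := ⟪e, z⟫ with ht
  set τ := t / T with hτ
  set ξ := (‖z‖ ^ 2 - t ^ 2) / T with hξ
  have hX0 : 0 ≤ ‖z‖ ^ 2 - t ^ 2 := by
    have := abs_real_inner_le_norm e z
    rw [H.unit, one_mul, ← ht] at this
    nlinarith [abs_nonneg t, sq_abs t, norm_nonneg z]
  have hξ0 : 0 ≤ ξ := div_nonneg hX0 hT0.le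
  have hzs : |t| ≤ T ∧ ‖z‖ ^ 2 - t ^ 2 ≤ 32 * η * T := hz
  have hτ1 : |τ| ≤ 1 := by
    rw [hτ, abs_div, abs_of_pos hT0, div_le_one hT0]; exact hzs.1
  have hτt : t = τ * T := by rw [hτ]; field_simp
  have hξX : ‖z‖ ^ 2 - t ^ 2 = ξ * T := by rw [hξ]; field_simp
  have hξ32 : ξ ≤ 32 * η := le_of_mul_le_mul_right (by linarith [hzs.2]) hT0
  have hf : b - 4 * η - σ * τ - κ * τ ^ 2 + ξ < dev u e z := by
    have := hφval z
    rw [dev]; simp only [hτ, hξ, ← ht] at this ⊢; linarith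
  have hz4 : ‖z‖ ≤ R / 4 := by linarith [hnorm z hz]
  have U1 : dev u e z ≤ b + 4 * η := by
    have h8 : 0 < t + 4096 * s := by linarith [(abs_le.1 hzs.1).1]
    have hL : ‖z - (-(4096 * s)) • e‖ ≤ 10 * T := by
      refine (norm_sub_le _ _).trans ?_
      rw [H.norm_axis, abs_neg, abs_of_pos (by positivity)]
      linarith [hnorm z hz]
    have h := H.parab (x := (-(4096 * s)) • e) (y := z) (s := t + 4096 * s)
      (by rw [H.norm_axis, abs_neg, abs_of_pos (by positivity)]; linarith) hz4 h8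
      (by rw [H.inner_sub_axis, ← ht]; ring) hL
    have e1 : t + 4096 * s = t - -(4096 * s) := by ring
    rw [e1, H.norm_add_axis_sq, ← e1, ← ht, hξX] at h
    have h2 : ξ * T / (2 * (t + 4096 * s)) ≤ 3 * η := by
      rw [div_le_iff₀ (by positivity)]
      nlinarith [mul_le_mul_of_nonneg_right hξ32 hT0.le, (abs_le.1 hzs.1).1]
    linarith
  have U2 : 1 / 256 < τ →
      dev u e z ≤ dev u e (s • e) + ξ / τ + η / 2 := by
    intro hbig
    have hts : 2 * s < t := by
      rw [hτt]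
      calc 2 * s = 1 / 256 * T := by rw [hT]; ring
        _ < τ * T := mul_lt_mul_of_pos_right hbig hT0
    have hL : ‖z - s • e‖ ≤ 10 * T := by
      refine (norm_sub_le _ _).trans ?_
      rw [H.norm_axis, abs_of_pos hs0]
      linarith [hnorm z hz]
    have h := H.parab (x := s • e) (y := z) (s := t - s)
      (by rw [H.norm_axis, abs_of_pos hs0]; linarith) hz4 (by linarith)
      (by rw [H.inner_sub_axis, ← ht]) hL
    rw [H.norm_add_axis_sq, ← ht, hξX] at h
    have h2 : ξ * T / (2 * (t - s)) ≤ ξ / τ := by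
      calc ξ * T / (2 * (t - s)) ≤ ξ * T / t :=
            div_le_div_of_nonneg_left (by positivity) (by linarith) (by linarith)
        _ = ξ / τ := by rw [hτ, div_div_eq_mul_div]
    linarith
  have hgood : |τ| < 1 ∧ ξ < 32 * η :=
    good_point hD0 hη (abs_le.1 hτ1) hξ0 (by rw [hσ, hκ] at hf; exact hf) U1 U2 hD'
  have hopen : IsOpen {y : E d | |⟪e, y⟫| < T ∧ ‖y‖ ^ 2 - ⟪e, y⟫ ^ 2 < 32 * η * T} :=
    (isOpen_lt (f := fun y : E d => |⟪e, y⟫|) (by fun_prop) continuous_const).inter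
      (isOpen_lt (f := fun y : E d => ‖y‖ ^ 2 - ⟪e, y⟫ ^ 2) (by fun_prop) continuous_const)
  refine ⟨mem_of_superset (hopen.mem_nhds ⟨?_, ?_⟩) (fun y hy => ⟨hy.1.le, hy.2.le⟩), ?_⟩
  · rw [← ht, hτt, abs_mul, abs_of_pos hT0]
    exact mul_lt_of_lt_one_left hT0 hgood.1
  · rw [← ht, hξX]; exact mul_lt_mul_of_pos_right hgood.2 hT0
  simp only [hφ]
  rw [infLap_quad _ _ _ _ H.unit, ← ht, hξX, hτt]
  exact super_neg hD0 hη hD2 hT2 (abs_le.1 hτ1) hgood.2 hσ hκ

end Flat

end Vale.Agent.P080
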