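import Vale.Agent.P080.Flat
import Mathlib.Analysis.SpecialFunctions.Pow.Continuity

/-!
# Flatness decay at parabolic scales and the Liouville theorem
-/

namespace Vale.Agent.P080

open scoped ContDiff Topology RealInnerProductSpace
open Set Filter Metric

variable {d : ℕ}

/-- the exponent -/
noncomputable def α0 : ℝ := Real.log (8193 / 8192) / Real.log 4096

lemma α0_pos : 0 < α0 := div_pos (Real.log_pos (by norm_num)) (Real.log_pos (by norm_num))

lemma α0_le_one : α0 ≤ 1 := by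
  rw [α0, div_le_one (Real.log_pos (by norm_num))]
  exact Real.log_le_log (by norm_num) (by norm_num)

lemma rpow_α0 : (4096 : ℝ) ^ α0 = 8193 / 8192 := by
  rw [Real.rpow_def_of_pos (by norm_num), α0, mul_div_cancel₀ _ (Real.log_pos (by norm_num)).ne',
    Real.exp_log (by norm_num)]

namespace Flat

variable {u : E d → ℝ} {e : E d} {R : ℝ}

lemma iter (H : Flat u e R) (n : ℕ) : ∀ s : ℝ, 1 / 256 ≤ s → 4 * 4096 ^ n * s ≤ R →
    drop u e s ≤ (8192 / 8193) ^ n * 2 + 200000 * (4096 ^ n * s / R) := by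
  induction n with
  | zero =>
    intro s hs hR
    have h := H.drop_le (s := s) (by rw [abs_of_pos (by linarith)]; linarith)
    have : 0 ≤ s / R := div_nonneg (by linarith) H.pos.le
    simp only [pow_zero, one_mul]
    linarith
  | succ n ih =>
    intro s hs hR
    have hs0 : 0 < s := by linarith
    have hp : (1 : ℝ) ≤ 4096 ^ n := one_le_pow₀ (by norm_num)
    rw [pow_succ] at hR
    have h1 : 16384 * s ≤ R := by
      have := mul_le_mul_of_nonneg_right hp hs0.le
      linarith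
    have h2 := ih (4096 * s) (by linarith) (by linarith)
    have h3 := H.step hs h1
    have h4 : s / R ≤ 4096 ^ n * s / R :=
      div_le_div_of_nonneg_right (le_mul_of_one_le_left hs0.le hp) H.pos.le
    have h5 : 0 ≤ 4096 ^ n * s / R := by have := H.pos; positivity
    rw [show 4096 ^ n * (4096 * s) / R = 4096 * (4096 ^ n * s / R) by ring] at h2
    rw [pow_succ, pow_succ, show 4096 ^ n * 4096 * s / R = 4096 * (4096 ^ n * s / R) by ring]
    linarith

lemma drop_pow (H : Flat u e R) {s w : ℝ} (hs : 1 / 256 ≤ s) (hw0 : 0 < w) (hw : w ≤ 1 / 16)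
    (hsw : s = w * R) : drop u e s ≤ 300000 * w ^ (α0 / 2) := by
  have hR := H.pos
  set x := Real.sqrt (1 / w) with hx
  have hy : 16 ≤ 1 / w := by rw [le_div_iff₀ hw0]; linarith
  have hx4 : 4 ≤ x := by
    calc (4 : ℝ) = Real.sqrt (4 ^ 2) := (Real.sqrt_sq (by norm_num)).symm
      _ ≤ x := Real.sqrt_le_sqrt (by norm_num; simpa using hy)
  have hx0 : 0 < x := by linarith
  have hxx : x * x = 1 / w := Real.mul_self_sqrt (by positivity)
  obtain ⟨n, hn1, hn2⟩ := exists_nat_pow_near (x := x) (y := (4096 : ℝ)) (by linarith) (by norm_num)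
  have hwx : w * (x * x) = 1 := by rw [hxx]; field_simp
  have hR' : 4 * 4096 ^ n * s ≤ R := by
    rw [hsw]
    have h1 : 4 * 4096 ^ n * w ≤ 1 := by
      rw [← hwx, mul_comm _ w, mul_le_mul_iff_right₀ hw0]
      exact mul_le_mul hx4 hn1 (by positivity) hx0.le
    calc 4 * 4096 ^ n * (w * R) = 4 * 4096 ^ n * w * R := by ring
      _ ≤ 1 * R := mul_le_mul_of_nonneg_right h1 hR.le
      _ = R := one_mul R
  have h := H.iter n s hs hR'
  have hpow : x ^ α0 ≤ (8193 / 8192 : ℝ) ^ (n + 1) := by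
    rw [← rpow_α0, ← Real.rpow_natCast ((4096 : ℝ) ^ α0), ← Real.rpow_mul (by norm_num),
      mul_comm α0, Real.rpow_mul (by norm_num), Real.rpow_natCast]
    exact Real.rpow_le_rpow hx0.le hn2.le α0_pos.le
  have hxa : 0 < x ^ α0 := Real.rpow_pos_of_pos hx0 _
  have hA : (8192 / 8193 : ℝ) ^ n * 2 ≤ 3 / x ^ α0 := by
    rw [le_div_iff₀ hxa]
    calc (8192 / 8193 : ℝ) ^ n * 2 * x ^ α0
        ≤ (8192 / 8193 : ℝ) ^ n * 2 * (8193 / 8192) ^ (n + 1) :=
          mul_le_mul_of_nonneg_left hpow (by positivity)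
      _ = 2 * (8193 / 8192) * ((8192 / 8193) * (8193 / 8192)) ^ n := by
          rw [pow_succ, mul_pow]; ring
      _ ≤ 3 := by norm_num
  have hB : 4096 ^ n * s / R ≤ 1 / x ^ α0 := by
    have h1 : 4096 ^ n * s / R = 4096 ^ n * w := by rw [hsw]; field_simp
    rw [h1]
    calc 4096 ^ n * w ≤ x * w := mul_le_mul_of_nonneg_right hn1 hw0.le
      _ = 1 / x := by field_simp; linear_combination hwx
      _ ≤ 1 / x ^ α0 := one_div_le_one_div_of_le hxa
          (Real.rpow_le_self_of_one_le (by linarith) α0_le_one)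
  have hid : 1 / x ^ α0 = w ^ (α0 / 2) := by
    rw [hx, Real.sqrt_eq_rpow, ← Real.rpow_mul (by positivity), one_div w,
      Real.inv_rpow hw0.le, one_div, inv_inv]
    congr 1
    ring
  rw [← hid]
  have : 3 / x ^ α0 = 3 * (1 / x ^ α0) := by ring
  linarith [one_div_pos.2 hxa]

/-- oscillation of the deviation on the ball of radius `K` -/
lemma osc (H : Flat u e R) {K : ℝ} (hK : 1 ≤ K) (hKR : K < R) {x y : E d} (hx : ‖x‖ ≤ K)
    (hy : ‖y‖ ≤ K) : |dev u e x - dev u e y| ≤ 600000 * (K ^ 2 / R) ^ (α0 / 4) := by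
  have hR := H.pos
  set ν := K ^ 2 / R with hν
  have hν0 : 0 < ν := by positivity
  have ha := α0_pos
  have ha1 := α0_le_one
  rcases le_or_gt (1 / 256) ν with hbig | hsmall
  · have h1 : (1 / 256 : ℝ) ≤ (1 / 256 : ℝ) ^ (α0 / 4) :=
      Real.self_le_rpow_of_le_one (by norm_num) (by norm_num) (by linarith)
    have h2 : (1 / 256 : ℝ) ^ (α0 / 4) ≤ ν ^ (α0 / 4) :=
      Real.rpow_le_rpow (by norm_num) hbig (by linarith)
    have h3 := abs_sub (dev u e x) (dev u e y)
    have h4 := H.abs_dev (z := x) (by linarith)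
    have h5 := H.abs_dev (z := y) (by linarith)
    linarith
  set w := Real.sqrt ν with hw
  have hw0 : 0 < w := Real.sqrt_pos.2 hν0
  have hw16 : w ≤ 1 / 16 := by
    rw [hw, Real.sqrt_le_left (by norm_num)]; norm_num; linarith
  have hw2 : w ^ 2 = ν := Real.sq_sqrt hν0.le
  set S := w * R with hS
  have hR256 : 256 * K ^ 2 < R := by
    rw [hν, div_lt_iff₀ hR] at hsmall; linarith
  have hKK : 1 ≤ K ^ 2 := one_le_pow₀ hK
  have hKS : 2 * K ≤ S := by
    refine le_of_pow_le_pow_left₀ two_ne_zero (by positivity) ?_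
    rw [hS, mul_pow w, hw2, hν]
    field_simp
    nlinarith
  have hS4 : S ≤ R / 16 := by
    rw [hS]
    linarith [mul_le_mul_of_nonneg_right hw16 hR.le]
  have hK4 : K ≤ R / 4 := by linarith
  have hKS2 : K ^ 2 / S = w := by
    rw [hS, div_eq_iff (by positivity)]
    calc K ^ 2 = ν * R := by rw [hν]; field_simp
      _ = w ^ 2 * R := by rw [hw2]
      _ = _ := by ring
  have hSR : S / R = w := by rw [hS]; field_simp
  have hS0 : 0 < S := by linarith
  have hdrop := H.drop_pow (s := S) (by linarith) hw0 hw16 rfl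
  have hwν : w ^ (α0 / 2) = ν ^ (α0 / 4) := by
    rw [hw, Real.sqrt_eq_rpow, ← Real.rpow_mul hν0.le]; congr 1; ring
  have hwle : w ≤ w ^ (α0 / 2) :=
    Real.self_le_rpow_of_le_one hw0.le (by linarith) (by linarith)
  have hin : ∀ z : E d, ‖z‖ ≤ K → |⟪e, z⟫| ≤ K := fun z hz => by
    have := abs_real_inner_le_norm e z
    rw [H.unit, one_mul] at this
    linarith
  have hside : ∀ z : E d, ‖z‖ ≤ K →
      dev u e z ≤ dev u e ((-S) • e) + 9 * w ∧ dev u e (S • e) ≤ dev u e z + 9 * w := by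
    intro z hz
    have ht := abs_le.1 (hin z hz)
    have hX : ‖z‖ ^ 2 - ⟪e, z⟫ ^ 2 ≤ K ^ 2 := by
      linarith [pow_le_pow_left₀ (norm_nonneg z) hz 2, sq_nonneg ⟪e, z⟫]
    constructor
    · have hL : ‖z - (-S) • e‖ ≤ 2 * S := by
        refine (norm_sub_le _ _).trans ?_
        rw [H.norm_axis, abs_neg, abs_of_pos hS0]; linarith
      have h := H.parab (x := (-S) • e) (y := z) (s := ⟪e, z⟫ - -S)
        (by rw [H.norm_axis, abs_neg, abs_of_pos hS0]; linarith) (hz.trans hK4) (by linarith)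
        (H.inner_sub_axis z (-S)) hL
      rw [H.norm_add_axis_sq] at h
      have h2 : (‖z‖ ^ 2 - ⟪e, z⟫ ^ 2) / (2 * (⟪e, z⟫ - -S)) ≤ w := by
        rw [← hKS2]
        exact div_le_div₀ (by positivity) hX hS0 (by linarith)
      rw [show 4 * (2 * S) / R = 8 * (S / R) by ring, hSR] at h
      linarith
    · have hL : ‖S • e - z‖ ≤ 2 * S := by
        refine (norm_sub_le _ _).trans ?_
        rw [H.norm_axis, abs_of_pos hS0]; linarith
      have h := H.parab (x := z) (y := S • e) (s := S - ⟪e, z⟫) (hz.trans hK4)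
        (by rw [H.norm_axis, abs_of_pos hS0]; linarith) (by linarith)
        (by rw [← neg_sub z, inner_neg_right, H.inner_sub_axis]; ring) hL
      rw [← neg_sub z (S • e), norm_neg, show (S - ⟪e, z⟫) ^ 2 = (⟪e, z⟫ - S) ^ 2 by ring,
        H.norm_add_axis_sq] at h
      have h2 : (‖z‖ ^ 2 - ⟪e, z⟫ ^ 2) / (2 * (S - ⟪e, z⟫)) ≤ w := by
        rw [← hKS2]
        exact div_le_div₀ (by positivity) hX hS0 (by linarith)
      rw [show 4 * (2 * S) / R = 8 * (S / R) by ring, hSR] at h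
      linarith
  obtain ⟨hx1, hx2⟩ := hside x hx
  obtain ⟨hy1, hy2⟩ := hside y hy
  have hd : drop u e S = dev u e ((-S) • e) - dev u e (S • e) := rfl
  rw [← hwν, abs_le]
  constructor <;> linarith

end Flat

/-! ### rescaling -/

lemma pd_aff {ψ : E d → ℝ} (hψ : Differentiable ℝ ψ) (c m b : ℝ) (x0 x : E d) (i : Fin d) :
    pd i (fun y => c * ψ (m • (y - x0)) + b) x = c * m * pd i ψ (m • (x - x0)) := by
  have h0 : HasFDerivAt (fun y : E d => m • (y - x0)) (m • ContinuousLinearMap.id ℝ (E d)) x :=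
    ((hasFDerivAt_id x).sub_const x0).const_smul m
  have h := (((hψ _).hasFDerivAt.comp x h0).const_mul c).add_const b
  rw [pd, HasFDerivAt.fderiv (f := fun y => c * ψ (m • (y - x0)) + b) h]
  simp [pd]
  ring

lemma infLap_aff {φ : E d → ℝ} (hφ : ContDiff ℝ 2 φ) (c m b : ℝ) (x0 x : E d) :
    infLap (fun y => c * φ (m • (y - x0)) + b) x = c ^ 3 * m ^ 4 * infLap φ (m • (x - x0)) := by
  have h1 : Differentiable ℝ φ := hφ.differentiable (by norm_num)
  have h2 : ∀ j, Differentiable ℝ (pd j φ) := fun j =>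
    (((hφ.fderiv_right (m := 1) (by norm_num)).clm_apply contDiff_const).differentiable
      (by norm_num))
  have e1 : ∀ j, pd j (fun y => c * φ (m • (y - x0)) + b)
      = fun y => c * m * pd j φ (m • (y - x0)) + 0 := fun j => by
    funext y; rw [add_zero]; exact pd_aff h1 c m b x0 y j
  unfold infLap
  simp only [e1, pd_aff (h2 _), Finset.mul_sum]
  refine Finset.sum_congr rfl fun i _ => Finset.sum_congr rfl fun j _ => ?_
  ring

lemma IsSub.rescale {u : E d → ℝ} {x0 : E d} {r : ℝ} (hu : IsSub u (ball x0 r)) {μ L : ℝ}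
    (hμ : 0 < μ) (hL : 0 < L) (b : ℝ) :
    IsSub (fun z => (u (x0 + μ • z) - b) / L) (ball 0 (r / μ)) := by
  have hmem : ∀ z ∈ ball (0 : E d) (r / μ), x0 + μ • z ∈ ball x0 r := by
    intro z hz
    rw [mem_ball, dist_zero_right, lt_div_iff₀ hμ] at hz
    rw [mem_ball, dist_eq_norm, add_sub_cancel_left, norm_smul, Real.norm_eq_abs, abs_of_pos hμ]
    linarith
  refine ⟨((hu.1.comp (by fun_prop) hmem).sub continuousOn_const).div_const L, ?_⟩
  intro z hz φ hφ hmax
  set x := x0 + μ • z with hx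
  have hgx : μ⁻¹ • (x - x0) = z := by
    rw [hx, add_sub_cancel_left, inv_smul_smul₀ hμ.ne']
  have hφ' : ContDiff ℝ 2 (fun y => L * φ (μ⁻¹ • (y - x0)) + b) := by fun_prop
  have hg : ContinuousAt (fun y : E d => μ⁻¹ • (y - x0)) x := by fun_prop
  have hev : ∀ᶠ y in 𝓝 x,
      (u (x0 + μ • (μ⁻¹ • (y - x0))) - b) / L - φ (μ⁻¹ • (y - x0))
        ≤ (u x - b) / L - φ z := by
    have h : Tendsto (fun y : E d => μ⁻¹ • (y - x0)) (𝓝 x) (𝓝 z) := hgx ▸ hg.tendsto
    exact h.eventually hmax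
  have hloc : IsLocalMax (fun y => u y - (L * φ (μ⁻¹ • (y - x0)) + b)) x := by
    filter_upwards [hev] with y hy
    rw [smul_inv_smul₀ hμ.ne', add_sub_cancel] at hy
    rw [hgx]
    have h := mul_le_mul_of_nonneg_left hy hL.le
    have e : ∀ v p : ℝ, L * ((v - b) / L - p) = v - b - L * p := fun v p => by field_simp
    rw [e, e] at h
    linarith
  have h := hu.2 x (hmem z hz) _ hφ' hloc
  rw [infLap_aff hφ, hgx] at h
  exact (mul_nonneg_iff_of_pos_left (by positivity)).1 h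

/-- Decay of flatness down to the parabolic scale. -/
theorem flat_decay {u : E d → ℝ} {x0 a : E d} {r b lam ρ : ℝ}
    (ha : a ≠ 0) (hlam : 0 < lam) (hu : IsSub u (ball x0 r))
    (hflat : ∀ x ∈ ball x0 r, |u x - (⟪a, x - x0⟫ + b)| ≤ lam * r * ‖a‖)
    (hρ1 : lam * r ≤ ρ) (hρ2 : ρ < r) {x y : E d} (hx : x ∈ closedBall x0 ρ)
    (hy : y ∈ closedBall x0 ρ) :
    |(u x - u y) - ⟪a, x - y⟫| ≤
      600000 * (lam * r * ‖a‖) * (ρ ^ 2 / (lam * r ^ 2)) ^ (α0 / 4) := by
  have hr : 0 < r := by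
    rw [mem_closedBall] at hx
    linarith [dist_nonneg (x := x) (y := x0)]
  set μ := lam * r with hμd
  have hμ : 0 < μ := mul_pos hlam hr
  have hna : 0 < ‖a‖ := norm_pos_iff.2 ha
  set L := μ * ‖a‖ with hLd
  have hL : 0 < L := mul_pos hμ hna
  set e := ‖a‖⁻¹ • a with hed
  have he : ‖e‖ = 1 := by
    rw [hed, norm_smul, norm_inv, norm_norm, inv_mul_cancel₀ hna.ne']
  have hinner : ∀ z : E d, ⟪e, z⟫ = ⟪a, z⟫ / ‖a‖ := fun z => by
    rw [hed, real_inner_smul_left]; ring
  set v := fun z => (u (x0 + μ • z) - b) / L with hv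
  have H : Flat v e (r / μ) := by
    refine ⟨hu.rescale hμ hL b, he, by positivity, fun z hz => ?_⟩
    rw [mem_ball, dist_zero_right, lt_div_iff₀ hμ] at hz
    have h := hflat (x0 + μ • z) (by
      rw [mem_ball, dist_eq_norm, add_sub_cancel_left, norm_smul, Real.norm_eq_abs,
        abs_of_pos hμ]
      linarith)
    rw [add_sub_cancel_left, real_inner_smul_right] at h
    have e1 : v z - ⟪e, z⟫ = (u (x0 + μ • z) - (μ * ⟪a, z⟫ + b)) / L := by
      rw [hv, hinner, hLd]; field_simp; ring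
    rw [e1, abs_div, abs_of_pos hL, div_le_one hL]
    exact h
  have hK : ∀ w : E d, w ∈ closedBall x0 ρ → ‖μ⁻¹ • (w - x0)‖ ≤ ρ / μ := by
    intro w hw
    rw [mem_closedBall, dist_eq_norm] at hw
    rw [norm_smul, Real.norm_eq_abs, abs_of_pos (inv_pos.2 hμ), inv_mul_eq_div]
    exact div_le_div_of_nonneg_right hw hμ.le
  have h := H.osc (K := ρ / μ) (by rw [le_div_iff₀ hμ]; linarith)
    (div_lt_div_of_pos_right hρ2 hμ) (hK x hx) (hK y hy)
  have e1 : (ρ / μ) ^ 2 / (r / μ) = ρ ^ 2 / (lam * r ^ 2) := by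
    rw [hμd]; field_simp
  have e2 : ∀ w : E d, dev v e (μ⁻¹ • (w - x0))
      = (u w - ⟪a, w⟫ + (⟪a, x0⟫ - b)) / L := fun w => by
    rw [dev, hinner]
    simp only [hv, smul_inv_smul₀ hμ.ne', add_sub_cancel, real_inner_smul_right, inner_sub_right,
      hLd]
    field_simp
    ring
  rw [e1, e2, e2, ← sub_div, abs_div, abs_of_pos hL, div_le_iff₀ hL] at h
  rw [inner_sub_right]
  calc |u x - u y - (⟪a, x⟫ - ⟪a, y⟫)|
      = |u x - ⟪a, x⟫ + (⟪a, x0⟫ - b) - (u y - ⟪a, y⟫ + (⟪a, x0⟫ - b))| := by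
        congr 1; ring
    _ ≤ _ := h
    _ = _ := by ring

/-- Liouville theorem. -/
theorem liouville {u : E d → ℝ} (hu : IsSub u univ) (a : E d) {C0 : ℝ}
    (h : ∀ x, |u x - ⟪a, x⟫| ≤ C0) (x : E d) : u x = u 0 + ⟪a, x⟫ := by
  have hC0 : 0 ≤ C0 := (abs_nonneg _).trans (h 0)
  by_cases ha : a = 0
  · subst ha
    simp only [inner_zero_left, add_zero]
    have key : ∀ p q : E d, u q ≤ u p := by
      intro p q
      have ht : Tendsto (fun ρ : ℝ => 2 * C0 / ρ * ‖q - p‖) atTop (𝓝 0) := by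
        simpa [div_eq_mul_inv] using (tendsto_inv_atTop_zero.const_mul (2 * C0)).mul_const ‖q - p‖
      have hev : ∀ᶠ ρ : ℝ in atTop, u q - u p ≤ 2 * C0 / ρ * ‖q - p‖ := by
        filter_upwards [eventually_gt_atTop ‖q - p‖] with ρ hρ
        have hs := hu.slope_flat (a := (0 : E d)) (C := C0)
          (lt_of_le_of_lt (norm_nonneg _) hρ) (subset_univ _) (fun z _ => h z) hρ.le
        rwa [norm_zero, zero_add] at hs
      have := ge_of_tendsto ht hev
      linarith
    exact le_antisymm (key 0 x) (key x 0)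
  have hna : 0 < ‖a‖ := norm_pos_iff.2 ha
  set C1 := C0 + 1 with hC1d
  have hC1 : 0 < C1 := by linarith
  set ρ := max ‖x‖ (C1 / ‖a‖) with hρd
  have hα : 0 < α0 / 4 := by linarith [α0_pos]
  have ht : Tendsto (fun r : ℝ => 600000 * C1 * (ρ ^ 2 * ‖a‖ / C1 / r) ^ (α0 / 4)) atTop
      (𝓝 0) := by
    have h1 : Tendsto (fun r : ℝ => ρ ^ 2 * ‖a‖ / C1 / r) atTop (𝓝 0) :=
      tendsto_const_nhds.div_atTop tendsto_id
    have h2 := (Real.continuousAt_rpow_const 0 (α0 / 4) (Or.inr hα.le)).tendsto.comp h1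
    rw [Real.zero_rpow hα.ne'] at h2
    simpa using h2.const_mul (600000 * C1)
  have hev : ∀ᶠ r : ℝ in atTop, |u x - u 0 - ⟪a, x⟫| ≤
      600000 * C1 * (ρ ^ 2 * ‖a‖ / C1 / r) ^ (α0 / 4) := by
    filter_upwards [eventually_gt_atTop ρ] with r hr
    have hρ0 : 0 ≤ ρ := (norm_nonneg x).trans (le_max_left _ _)
    have hr0 : 0 < r := lt_of_le_of_lt hρ0 hr
    have e1 : C1 / (r * ‖a‖) * r * ‖a‖ = C1 := by field_simp
    have hsub : IsSub u (ball (0 : E d) r) :=
      ⟨hu.1.mono (subset_univ _), fun z _ => hu.2 z (mem_univ z)⟩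
    have hfd := flat_decay (x0 := (0 : E d)) (a := a) (r := r) (b := 0)
      (lam := C1 / (r * ‖a‖)) (ρ := ρ) ha (by positivity) hsub
      (fun z _ => by
        rw [e1, sub_zero, add_zero]
        linarith [h z]) ?_ hr (x := x) (y := 0) ?_ ?_
    · rw [e1, sub_zero] at hfd
      convert hfd using 3
      field_simp
    · rw [show C1 / (r * ‖a‖) * r = C1 / ‖a‖ by field_simp]
      exact le_max_right _ _
    · rw [mem_closedBall, dist_zero_right]; exact le_max_left _ _
    · exact mem_closedBall_self hρ0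
  have := abs_le.1 (ge_of_tendsto ht hev)
  linarith

end Vale.Agent.P080
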